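import Vale.Agent.P226.Main

/-!
The Gaussian propeller inequality in every dimension and for every number of cells.
-/

open MeasureTheory ProbabilityTheory Filter Set Function
open scoped RealInnerProductSpace

namespace Vale.Agent.Results.P226.GaussianPropeller

open Vale.Agent.P226

lemma upper {n k : ℕ} (A : Fin k → Set (Space n)) (hA : ∀ i, MeasurableSet (A i))
    (hd : Pairwise fun i j => (gauss n) (A i ∩ A j) = 0) (hu : (gauss n) (⋃ i, A i)ᶜ = 0) :
    ∑ i, ‖moment (A i)‖ ^ 2 ≤ c2 := by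
  rcases k with _ | m
  · simp only [Finset.univ_eq_empty, Finset.sum_empty]
    unfold c2
    positivity
  set w : Fin (m + 1) → Space n := fun i => moment (A i) with hw
  have hψ : ∑ i, ⟪w i, moment (A i)⟫ ≤ psi w := by
    simp only [inner_moment]
    calc ∑ i, ∫ x in A i, ⟪w i, x⟫ ∂(gauss n)
        ≤ ∑ i, ∫ x in A i, maxOver (fun j => ⟪w j, x⟫) ∂(gauss n) :=
          Finset.sum_le_sum fun i _ => setIntegral_mono (integrable_inner _).integrableOn
            (integrable_maxInner w).integrableOn fun x => le_maxOver (fun j => ⟪w j, x⟫) i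
      _ = ∫ x in ⋃ i, A i, maxOver (fun j => ⟪w j, x⟫) ∂(gauss n) := by
          rw [integral_iUnion_ae (fun i => (hA i).nullMeasurableSet) hd
            (integrable_maxInner w).integrableOn, tsum_fintype]
      _ = psi w := by
          rw [setIntegral_congr_set (ae_eq_univ.2 hu), setIntegral_univ, psi]
  have hJ := J_le_c2 m w
  simp only [hw, real_inner_self_eq_norm_sq] at hψ
  simp only [J, hw] at hJ
  linarith

lemma attained {n k : ℕ} (hn : 2 ≤ n) (hk : 3 ≤ k) :
    ∃ A : Fin k → Set (Space n), (∀ i, MeasurableSet (A i)) ∧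
      (Pairwise fun i j => Disjoint (A i) (A j)) ∧ (⋃ i, A i) = univ ∧
      ∑ i, ‖moment (A i)‖ ^ 2 = c2 := by
  set e0 : Space n := EuclideanSpace.single ⟨0, by omega⟩ 1 with he0
  set e1 : Space n := EuclideanSpace.single ⟨1, by omega⟩ 1 with he1
  have h00 : ⟪e0, e0⟫ = (1:ℝ) := by simp [he0, EuclideanSpace.inner_single_left]
  have h11 : ⟪e1, e1⟫ = (1:ℝ) := by simp [he1, EuclideanSpace.inner_single_left]
  have h01 : ⟪e0, e1⟫ = (0:ℝ) := by simp [he0, he1, EuclideanSpace.inner_single_left]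
  have hnorm : ∀ a b : ℝ, ‖a • e0 + b • e1‖ ^ 2 = a ^ 2 + b ^ 2 := by
    intro a b
    rw [← real_inner_self_eq_norm_sq]
    simp only [inner_add_left, inner_add_right, real_inner_smul_left, real_inner_smul_right, h00,
      h11, h01, real_inner_comm e0 e1]
    ring
  set φ := phi 0 with hφ
  have hs : Real.sqrt 3 ^ 2 = 3 := Real.sq_sqrt (by norm_num)
  let v : Fin 3 → Space n :=
    ![(Real.sqrt 3 / 2 * φ) • e0 + (0:ℝ) • e1,
      (-(Real.sqrt 3) / 4 * φ) • e0 + (3 / 4 * φ) • e1,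
      (-(Real.sqrt 3) / 4 * φ) • e0 + (-(3 / 4) * φ) • e1]
  have hdist : ∀ {a b c d : ℝ}, (a - c) ^ 2 + (b - d) ^ 2 = (3 / 2 * φ) ^ 2 →
      ‖(a • e0 + b • e1) - (c • e0 + d • e1)‖ = 3 / 2 * φ := by
    intro a b c d h
    have e : (a • e0 + b • e1) - (c • e0 + d • e1) = (a - c) • e0 + (b - d) • e1 := by module
    rw [e, ← sq_eq_sq₀ (norm_nonneg _) (by have := phi_nonneg 0; positivity), hnorm, h]
  have hJv : J v = c2 := by
    have h := psi_three v
    have d01 : ‖v 0 - v 1‖ = 3 / 2 * φ := hdist (by nlinarith)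
    have d12 : ‖v 1 - v 2‖ = 3 / 2 * φ := hdist (by nlinarith)
    have d20 : ‖v 2 - v 0‖ = 3 / 2 * φ := hdist (by nlinarith)
    rw [d01, d12, d20, ← hφ] at h
    have n0 : ‖v 0‖ ^ 2 = 3 / 4 * φ ^ 2 := (hnorm _ _).trans (by nlinarith)
    have n1 : ‖v 1‖ ^ 2 = 3 / 4 * φ ^ 2 := (hnorm _ _).trans (by nlinarith)
    have n2 : ‖v 2‖ ^ 2 = 3 / 4 * φ ^ 2 := (hnorm _ _).trans (by nlinarith)
    rw [J, Fin.sum_univ_three, h, n0, n1, n2, ← phi_zero_sq_c2, ← hφ]
    ring
  obtain ⟨C, hC, hCd, hCu, hCmax⟩ := exists_argmax_cells v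
  let B : Fin k → Set (Space n) := fun i => if h : (i : ℕ) < 3 then C ⟨i, h⟩ else ∅
  have hBC : ∀ b : Fin 3, B (Fin.castLE hk b) = C b := fun b => by simp [B]
  have hBm : ∀ i, MeasurableSet (B i) := fun i => by
    by_cases h : (i : ℕ) < 3 <;> simp [B, h, hC]
  have hBd : Pairwise fun i j => Disjoint (B i) (B j) := by
    intro i j hij
    by_cases hi : (i : ℕ) < 3
    · by_cases hj : (j : ℕ) < 3
      · simp only [B, hi, hj, dif_pos]
        exact hCd fun h => hij (Fin.ext (Fin.mk.inj_iff.1 h))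
      · simp [B, hj]
    · simp [B, hi]
  have hBu : (⋃ i, B i) = univ := by
    refine eq_univ_of_forall fun x => ?_
    obtain ⟨b, hb⟩ := mem_iUnion.1 (hCu ▸ mem_univ x)
    exact mem_iUnion.2 ⟨Fin.castLE hk b, (hBC b).symm ▸ hb⟩
  refine ⟨B, hBm, hBd, hBu, le_antisymm ?_ ?_⟩
  · refine upper B hBm (fun i j hij => ?_) (by simp [hBu])
    show (gauss n) (B i ∩ B j) = 0
    rw [(hBd hij).inter_eq, measure_empty]
  · have hsum : ∑ b, ‖moment (C b)‖ ^ 2 ≤ ∑ i, ‖moment (B i)‖ ^ 2 := by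
      calc ∑ b, ‖moment (C b)‖ ^ 2 = ∑ b, ‖moment (B (Fin.castLE hk b))‖ ^ 2 := by simp [hBC]
        _ = ∑ i ∈ Finset.univ.map (Fin.castLEEmb hk), ‖moment (B i)‖ ^ 2 := by
            rw [Finset.sum_map]; rfl
        _ ≤ _ := Finset.sum_le_sum_of_subset_of_nonneg (Finset.subset_univ _)
            fun i _ _ => sq_nonneg _
    refine le_trans ?_ hsum
    rw [← hJv, J, ← sum_inner_moment_eq v hC hCd hCu hCmax, Finset.mul_sum, ← Finset.sum_sub_distrib]
    refine Finset.sum_le_sum fun b _ => ?_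
    nlinarith [norm_sub_sq_real (v b) (moment (C b)), sq_nonneg ‖v b - moment (C b)‖]

/-- The Gaussian propeller conjecture: in every dimension and for every number of cells, the sum of
squared Gaussian first moments of a measurable partition is at most `9 / (8π)`, and this value is
attained whenever the dimension is at least two and there are at least three cells. -/
theorem result :
    (∀ (n k : ℕ) (A : Fin k → Set (EuclideanSpace ℝ (Fin n))),
      (∀ i, MeasurableSet (A i)) →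
      (∀ i j, i ≠ j → stdGaussian (EuclideanSpace ℝ (Fin n)) (A i ∩ A j) = 0) →
      stdGaussian (EuclideanSpace ℝ (Fin n)) (⋃ i, A i)ᶜ = 0 →
      ∑ i, ‖∫ x in A i, x ∂(stdGaussian (EuclideanSpace ℝ (Fin n)))‖ ^ 2 ≤ 9 / (8 * Real.pi)) ∧
    (∀ (n k : ℕ), 2 ≤ n → 3 ≤ k →
      ∃ A : Fin k → Set (EuclideanSpace ℝ (Fin n)),
        (∀ i, MeasurableSet (A i)) ∧ (∀ i j, i ≠ j → Disjoint (A i) (A j)) ∧
        (⋃ i, A i) = Set.univ ∧
        ∑ i, ‖∫ x in A i, x ∂(stdGaussian (EuclideanSpace ℝ (Fin n)))‖ ^ 2 = 9 / (8 * Real.pi)) :=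
  ⟨fun _ _ A hA hd hu => upper A hA (fun i j hij => hd i j hij) hu,
    fun _ _ hn hk => by
      obtain ⟨A, h1, h2, h3, h4⟩ := attained hn hk
      exact ⟨A, h1, fun i j hij => h2 hij, h3, h4⟩⟩

end Vale.Agent.Results.P226.GaussianPropeller
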